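import Vale.Agent.P275TR.Cousin
import Vale.Agent.P275NA.Defs

/-! # Holomorphic cocycles over a disc are trivial -/

open Set Filter Metric
open scoped Topology Matrix.Norms.Operator

namespace Vale.Agent.P275TR

theorem triv_ok : P275NA.TRIV := by
  intro n J _ _ V g r' r hr hV hc hg hcoc
  obtain ⟨U, θ, hU, hS, h⟩ := triv (isCompact_closedBall (0 : ℂ) r') (convex_closedBall _ _) V hV
    (fun z hz => mem_iUnion.2 (hc z (closedBall_subset_ball hr hz))) (fun a b => g b a)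
    (fun a b z hz => ⟨(hg b a z ⟨hz.2, hz.1⟩).1.differentiableAt,
      (Matrix.isUnit_iff_isUnit_det _).2 (hg b a z ⟨hz.2, hz.1⟩).2.isUnit⟩)
    fun a b c z hz => (hcoc c b a z ⟨⟨hz.2, hz.1.2⟩, hz.1.1⟩).symm
  refine ⟨θ, fun i z hz => ⟨?_, ?_⟩, fun i j z hz =>
    (h z (hS (ball_subset_closedBall hz.2)) j hz.1.2).2.2 i hz.1.1⟩
  · refine DifferentiableOn.analyticAt (s := U ∩ V i)
      (fun x hx => (h x hx.1 i hx.2).1.differentiableWithinAt)
      ((hU.inter (hV i)).mem_nhds ⟨hS (ball_subset_closedBall hz.2), hz.1⟩)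
  · exact ((Matrix.isUnit_iff_isUnit_det _).1
      (h z (hS (ball_subset_closedBall hz.2)) i hz.1).2.1).ne_zero

end Vale.Agent.P275TR
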