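import Vale.Agent.P253W.WM.All
import Vale.Agent.P275NA.Defs

/-! # Wiener-Masani frames for a metric with bounded curvature -/

set_option linter.unusedSectionVars false

open Set Filter Metric Matrix
open scoped Topology Matrix.Norms.Operator ComplexOrder
open Vale.Agent.P281Z.Hm (Mx an_of entL)

namespace Vale.Agent.P275TR

open Vale.Agent.P275NA

variable {n : Type} [Fintype n] [DecidableEq n]

/-- A positive matrix is bounded by its trace. -/
theorem le_of_trace {A : Mx n} (hA : A.PosSemidef) {C : ℝ} (h : (trace A).re ≤ C) :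
    ((C : ℂ) • (1 : Mx n) - A).PosSemidef := by
  have e : (C : ℂ) • (1 : Mx n) - A = (hA.1.eigenvectorUnitary : Mx n) *
      Matrix.diagonal (fun i => ((C - hA.1.eigenvalues i : ℝ) : ℂ)) *
        (hA.1.eigenvectorUnitary : Mx n)ᴴ := by
    have e1 : Matrix.diagonal (fun i => ((C - hA.1.eigenvalues i : ℝ) : ℂ)) =
        (C : ℂ) • (1 : Mx n) - Matrix.diagonal (RCLike.ofReal ∘ hA.1.eigenvalues) := by
      ext i j
      by_cases g : i = j <;> simp [g, Matrix.diagonal, one_apply]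
    rw [e1, mul_sub, sub_mul, mul_smul_comm, mul_one, smul_mul_assoc, ← star_eq_conjTranspose,
      Unitary.mul_star_self_of_mem hA.1.eigenvectorUnitary.2]
    congr 1
    exact hA.1.spectral_theorem
  rw [e]
  refine (PosSemidef.diagonal fun i => ?_).mul_mul_conjTranspose_same _
  rw [hA.1.trace_eq_sum_eigenvalues, ← RCLike.ofReal_sum] at h
  have := Finset.single_le_sum (fun j _ => hA.eigenvalues_nonneg j) (Finset.mem_univ i)
  simp only [Pi.zero_apply, Complex.zero_le_real, sub_nonneg]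
  exact this.trans h

theorem btw_of_trace {H : Mx n} (hH : H.PosDef) {C : ℝ} (hC : 0 < C) (h : (trace H).re ≤ C)
    (h' : (trace H⁻¹).re ≤ C) : Btw C⁻¹ C H := by
  refine ⟨?_, le_of_trace hH.posSemidef h⟩
  have hd : IsUnit H.det := (isUnit_iff_isUnit_det _).1 hH.isUnit
  set c : ℂ := ((C⁻¹ : ℝ) : ℂ) with hc
  have hs : (H - c • (1 : Mx n))ᴴ = H - c • 1 := by
    rw [conjTranspose_sub, hH.1, conjTranspose_smul, conjTranspose_one, hc]
    simp
  have hcC : c * C = 1 := by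
    rw [hc, ← Complex.ofReal_mul, inv_mul_cancel₀ hC.ne', Complex.ofReal_one]
  have e : H - c • (1 : Mx n) = (H - c • 1)ᴴ * H⁻¹ * (H - c • 1) +
      (c * c) • ((C : ℂ) • (1 : Mx n) - H⁻¹) := by
    rw [hs, smul_sub, smul_smul, mul_assoc c c, hcC]
    simp only [sub_mul, mul_sub, mul_nonsing_inv _ hd, smul_mul_assoc, mul_smul_comm, one_mul,
      mul_one, nonsing_inv_mul _ hd, smul_sub, smul_smul]
    abel
  rw [e]
  refine (hH.inv.posSemidef.conjTranspose_mul_mul_same _).add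
    ((le_of_trace hH.inv.posSemidef h').smul ?_)
  rw [hc, ← Complex.ofReal_mul, Complex.zero_le_real]
  positivity

theorem hk_one (z : ℂ) : hk (fun _ => (1 : Mx n)) (fun _ => 0) z = 0 := by
  have : cn (fun _ => (1 : Mx n)) = fun _ => 0 := funext fun x => by simp [cn]
  simp [hk, cv, br, this]

theorem hk_zero (h : ℂ → Mx n) (z : ℂ) : hk h (fun _ => 0) z = cv h z := by simp [hk, br]

theorem met_one (z : ℂ) : MetAt (fun _ => (1 : Mx n)) z :=
  ⟨contDiffAt_const, Eventually.of_forall fun _ => PosDef.one⟩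

/-- The maximum principle for the norm of an invertible holomorphic map. -/
theorem nq_le (h1 : MAXP) (h2 : HOMK) (h3 : NRM) [Nonempty n] {k h g : ℂ → Mx n} {r M B : ℝ}
    (hM : 0 ≤ M) (hk : ∀ z ∈ closedBall (0 : ℂ) r, MetAt k z ∧ MetAt h z ∧ g z ≠ 0)
    (hc : ContinuousOn g (closedBall 0 r)) (ha : AnalyticOnNhd ℂ g (ball 0 r))
    (hb : ∀ z ∈ ball (0 : ℂ) r, -(M * nq (k z) (h z) (g z)) ≤
      (trace (ad (k z) (h z) (g z) * g z * P275NA.hk k (fun _ => 0) z)).re -
      (trace (g z * ad (k z) (h z) (g z) * P275NA.hk h (fun _ => 0) z)).re)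
    (hs : ∀ z ∈ sphere (0 : ℂ) r, nq (k z) (h z) (g z) = B) :
    ∀ z ∈ closedBall (0 : ℂ) r, nq (k z) (h z) (g z) ≤ Real.exp (Real.log B + M * r ^ 2) := by
  have pos : ∀ z ∈ closedBall (0 : ℂ) r, 0 < nq (k z) (h z) (g z) := fun z hz => by
    obtain ⟨a, b, c⟩ := hk z hz
    obtain ⟨d, e, -⟩ := (h3 n n).2 (k z) (h z) (g z) 0 0 0 a.pos.self_of_nhds b.pos.self_of_nhds
      le_rfl
    exact d.lt_of_ne fun f => c (e f.symm)
  have cont : ContinuousOn (fun z => nq (k z) (h z) (g z)) (closedBall 0 r) := fun z hz => by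
    obtain ⟨a, b, -⟩ := hk z hz
    have d : (k z).det ≠ 0 := ((isUnit_iff_isUnit_det _).1 a.pos.self_of_nhds.isUnit).ne_zero
    have k1 : ContinuousWithinAt (fun z => (k z)⁻¹) (closedBall 0 r) z :=
      ((continuousAt_matrix_inv _ (by
        rw [Ring.inverse_eq_inv']; exact continuousAt_inv₀ d)).comp
        a.c2.continuousAt).continuousWithinAt
    have k2 : ContinuousWithinAt (fun z => (g z)ᴴ) (closedBall 0 r) z :=
      (continuous_id.matrix_conjTranspose).continuousAt.comp_continuousWithinAt (hc z hz)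
    exact (Complex.continuous_re.comp continuous_id.matrix_trace).continuousAt
      |>.comp_continuousWithinAt
        (((k1.mul k2).mul b.c2.continuousAt.continuousWithinAt).mul (hc z hz))
  intro z hz
  rw [← Real.log_le_iff_le_exp (pos z hz)]
  refine h1.2.1 (fun z => Real.log (nq (k z) (h z) (g z))) 0 r M _ hM
    (cont.log fun z hz => (pos z hz).ne') (fun x hx => ?_) (fun x hx => by rw [hs x hx]) z hz
  have hx' := ball_subset_closedBall hx
  obtain ⟨a, b, c⟩ := hk x hx'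
  obtain ⟨d, -, e⟩ := h2 n n k (fun _ => 0) h (fun _ => 0) g x a b (ha x hx) (by simp)
  refine ⟨d.log (pos x hx').ne', le_of_mul_le_mul_left ?_ (pos x hx')⟩
  have e1 := e c
  have e2 : ad (h x) (h x) (0 : Mx n) * g x - g x * ad (k x) (k x) (0 : Mx n) = 0 := by simp [ad]
  have e3 : nq (k x) (h x) (0 : Mx n) = 0 := by simp [nq]
  rw [e2, e3] at e1
  have := hb x hx
  linarith

/-- **Wiener-Masani frames.** -/
theorem wmf (h1 : MAXP) (h2 : HOMK) (h3 : NRM) : WMF := by
  intro n _ _ r M hr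
  set C := Real.exp (Real.log (Fintype.card n) + |M| * r ^ 2) with hC
  have C0 : 0 < C := Real.exp_pos _
  refine ⟨C⁻¹, C, inv_pos.2 C0, fun h hh => ?_⟩
  have m1 : ∀ τ ∈ closedBall (0 : ℂ) 1, (r : ℂ) * τ ∈ closedBall (0 : ℂ) r := fun τ hτ => by
    rw [mem_closedBall_zero_iff] at hτ ⊢
    rw [norm_mul, Complex.norm_real, Real.norm_of_nonneg hr.le]
    nlinarith
  have nd : ∀ z : ℂ, ‖z / r‖ = ‖z‖ / r := fun z => by
    rw [norm_div, Complex.norm_real, Real.norm_of_nonneg hr.le]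
  have m2 : MapsTo (fun z : ℂ => z / r) (closedBall 0 r) (closedBall 0 1) := fun z hz => by
    rw [mem_closedBall_zero_iff] at hz ⊢
    rwa [nd, div_le_one hr]
  have m3 : MapsTo (fun z : ℂ => z / r) (ball 0 r) (ball 0 1) := fun z hz => by
    rw [mem_ball_zero_iff] at hz ⊢
    rwa [nd, div_lt_one hr]
  have m4 : MapsTo (fun z : ℂ => z / r) (sphere 0 r) (sphere 0 1) := fun z hz => by
    rw [mem_sphere_zero_iff_norm] at hz ⊢
    rw [nd, hz, div_self hr.ne']
  have r0 : (r : ℂ) ≠ 0 := by exact_mod_cast hr.ne'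
  obtain ⟨Φ, Ψ, f1, f2, f3, f4⟩ := P253W.WM.All.wme n (fun τ => h (r * τ)) (fun i j => by
    have : ContDiffOn ℝ 2 (fun τ : ℂ => h (r * τ) i j) (closedBall 0 1) := fun τ hτ =>
      (((entL i j).restrictScalars ℝ).contDiff.contDiffAt.comp τ
        ((hh _ (m1 τ hτ)).1.c2.comp τ (by fun_prop))).contDiffWithinAt
    obtain ⟨K, hK⟩ := this.exists_lipschitzOnWith (by norm_num) (convex_closedBall _ _)
      (isCompact_closedBall _ _)
    exact ⟨K, P253W.WM.dq_of_lip K.2 fun σ hσ τ hτ => by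
      simpa [dist_eq_norm] using hK.dist_le_mul σ (sphere_subset_closedBall hσ) τ
        (sphere_subset_closedBall hτ)⟩)
    fun τ hτ => (hh _ (m1 τ (sphere_subset_closedBall hτ))).1.pos.self_of_nhds
  have an : ∀ {F : ℂ → Mx n}, P253W.WM.HWm F → AnalyticOnNhd ℂ (fun z => F (z / r)) (ball 0 r) ∧
      ContinuousOn (fun z => F (z / r)) (closedBall 0 r) := fun {F} hF =>
    ⟨fun z hz => an_of fun i j => (((hF i j).da.differentiableOn.analyticOnNhd isOpen_ball) _
      (m3 hz)).comp_of_eq (by fun_prop) rfl, hF.cb.comp (by fun_prop) m2⟩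
  have f3' : ∀ z ∈ closedBall (0 : ℂ) r, Φ (z / r) * Ψ (z / r) = 1 := fun z hz => f3 _ (m2 hz)
  have f4' : ∀ z ∈ sphere (0 : ℂ) r, (Ψ (z / r))ᴴ * Ψ (z / r) = h z := fun z hz => by
    rw [f4 _ (m4 hz), mul_div_cancel₀ _ r0]
  have u1 : ∀ z ∈ closedBall (0 : ℂ) r, IsUnit (Φ (z / r)) := fun z hz =>
    IsUnit.of_mul_eq_one _ (f3' z hz)
  refine ⟨fun z => Φ (z / r), (an f1).1, fun z hz => ⟨((isUnit_iff_isUnit_det _).1
    (u1 z (ball_subset_closedBall hz))).ne_zero, ?_⟩⟩
  have hz' := ball_subset_closedBall hz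
  rcases isEmpty_or_nonempty n with hn | hn
  · have : ∀ A : Mx n, A.PosSemidef := fun A =>
      (Matrix.ext fun i => isEmptyElim i : (0 : Mx n) = A) ▸ PosSemidef.zero
    exact ⟨this _, this _⟩
  have pd : ∀ z ∈ closedBall (0 : ℂ) r, (h z).PosDef := fun z hz => (hh z hz).1.pos.self_of_nhds
  have sq : ∀ z ∈ closedBall (0 : ℂ) r, nq (h z) (h z) (cv h z) ≤ |M| ^ 2 := fun z hz => by
    rw [sq_abs]; exact (hh z hz).2
  have e1 : ∀ z, nq 1 (h z) (Φ (z / r)) = (trace ((Φ (z / r))ᴴ * h z * Φ (z / r))).re :=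
    fun z => by simp [nq, ad]
  have e2 : ∀ z ∈ closedBall (0 : ℂ) r, nq (h z) 1 (Ψ (z / r)) =
      (trace ((Φ (z / r))ᴴ * h z * Φ (z / r))⁻¹).re := fun z hz => by
    rw [Matrix.mul_inv_rev, Matrix.mul_inv_rev, ← conjTranspose_nonsing_inv,
      inv_eq_right_inv (f3' z hz), trace_mul_comm, nq, ad, mul_one]
  have e3 : ∀ z ∈ sphere (0 : ℂ) r, (Φ (z / r))ᴴ * h z * Φ (z / r) = 1 := fun z hz => by
    have := mul_eq_one_comm.1 (f3' z (sphere_subset_closedBall hz))
    rw [← f4' z hz, ← mul_assoc, ← conjTranspose_mul, mul_assoc, this, conjTranspose_one, mul_one]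
  refine btw_of_trace ((pd z hz').conjTranspose_mul_mul_same
    (mulVec_injective_of_isUnit (u1 z hz'))) C0 ?_ ?_
  · rw [← e1]
    refine nq_le h1 h2 h3 (k := fun _ => 1) (abs_nonneg M)
      (fun x hx => ⟨met_one x, (hh x hx).1, (u1 x hx).ne_zero⟩) (an f1).2 (an f1).1
      (fun x hx => ?_) (fun x hx => by simp [e1, e3 x hx]) z hz'
    have := ((h3 n n).2 1 (h x) (Φ (x / r)) 0 (cv h x) |M| PosDef.one
      (pd x (ball_subset_closedBall hx)) (abs_nonneg M)).2.2.2 (sq x (ball_subset_closedBall hx))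
    rw [hk_one, hk_zero, mul_zero, trace_zero, Complex.zero_re]
    linarith [(abs_le.1 this).2]
  · rw [← e2 z hz']
    refine nq_le h1 h2 h3 (h := fun _ => 1) (abs_nonneg M)
      (fun x hx => ⟨(hh x hx).1, met_one x, (IsUnit.of_mul_eq_one_right _ (f3' x hx)).ne_zero⟩)
      (an f2).2 (an f2).1 (fun x hx => ?_)
      (fun x hx => by simp [e2 x (sphere_subset_closedBall hx), e3 x hx]) z hz'
    have := ((h3 n n).2 (h x) 1 (Ψ (x / r)) (cv h x) 0 |M| (pd x (ball_subset_closedBall hx))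
      PosDef.one (abs_nonneg M)).2.2.1 (sq x (ball_subset_closedBall hx))
    rw [hk_one, hk_zero, mul_zero, trace_zero, Complex.zero_re]
    linarith [(abs_le.1 this).1]

end Vale.Agent.P275TR
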