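import Mathlib
import Vale.Agent.P290.H245.GL2

/-! # The Cousin problem for `GL_n(ℂ)` near a compact convex set (Cartan's lemma) -/

set_option linter.unusedSectionVars false

open Set Filter Metric
open scoped Topology NNReal Matrix.Norms.Operator

namespace Vale.Agent.P275TR

open Vale.Agent.P290 Vale.Agent.P290.K Vale.Agent.P290.H245

variable {n : Type} [Fintype n] [DecidableEq n]

section cartan
variable {V : Type} [NormedAddCommGroup V] [NormedSpace ℂ V] [FiniteDimensional ℂ V]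

/-- Entrywise bound for the exponential norm. -/
def ME (K : Set V) (g : V → Matrix n n ℂ) (M : ℝ≥0) : Prop := ∀ i j, EN K (fun z => g z i j) M

theorem en_sum {ι : Type} {K : Set V} {f : ι → V → ℂ} {M : ℝ≥0} (s : Finset ι)
    (h : ∀ k, EN K (f k) M) : EN K (fun z => ∑ k ∈ s, f k z) (s.card * M) := by
  classical
  induction s using Finset.induction_on with
  | empty => simpa using EN.zero (R := ℂ) K
  | insert a s ha ih =>
    simp only [Finset.sum_insert ha, Finset.card_insert_of_notMem ha]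
    exact ((h a).add ih).mono (le_of_eq (by push_cast; ring))

theorem ME.mul {K : Set V} {g g' : V → Matrix n n ℂ} {M M' : ℝ≥0} (h : ME K g M)
    (h' : ME K g' M') : ME K (fun z => g z * g' z) (Fintype.card n * (M * M')) := fun i j =>
  en_sum Finset.univ fun k => (h i k).mul (h' k j)

theorem norm_le_of {A : Matrix n n ℂ} {c : ℝ≥0} (h : ∀ i j, ‖A i j‖ ≤ c) :
    ‖A‖ ≤ Fintype.card n * c := by
  rw [Matrix.linfty_opNorm_def, ← NNReal.coe_natCast, ← NNReal.coe_mul, NNReal.coe_le_coe]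
  exact Finset.sup_le fun i _ => (Finset.sum_le_card_nsmul _ _ c fun j _ => h i j).trans
    (by simp)

theorem entry_le (A : Matrix n n ℂ) (i j : n) : ‖A i j‖ ≤ ‖A‖ := by
  rw [Matrix.linfty_opNorm_def, ← coe_nnnorm, NNReal.coe_le_coe]
  exact (Finset.single_le_sum (f := fun j => ‖A i j‖₊) (fun _ _ => zero_le) (Finset.mem_univ j)).trans
    (Finset.le_sup (f := fun i => ∑ j, ‖A i j‖₊) (Finset.mem_univ i))

theorem diff_iff {g : V → Matrix n n ℂ} {z : V} :
    DifferentiableAt ℂ g z ↔ ∀ i j, DifferentiableAt ℂ (fun z => g z i j) z := by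
  refine ⟨fun h i j => (LinearMap.toContinuousLinearMap
    (Matrix.entryLinearMap ℂ ℂ i j)).differentiableAt.comp z h, fun h => ?_⟩
  have e : g = fun x => ∑ i, ∑ j, g x i j • Matrix.single i j (1 : ℂ) := by
    funext x
    conv_lhs => rw [Matrix.matrix_eq_sum_single (g x)]
    simp [Matrix.smul_single]
  rw [e]
  exact DifferentiableAt.fun_sum fun i _ => DifferentiableAt.fun_sum fun j _ =>
    (h i j).smul_const _

/-- Splitting of maps close to the identity. -/
theorem split_near_one {A B W : Set V} (hA : Good A) (hB : Good B)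
    (hAB : Convex ℝ (A ∪ B)) (hW : IsOpen W) (hABW : A ∩ B ⊆ W) :
    ∃ δ > 0, ∀ M : V → Matrix n n ℂ, DifferentiableOn ℂ M W → (∀ z ∈ W, ‖M z - 1‖ ≤ δ) →
      ∃ P Q : V → Matrix n n ℂ, HolNear A P ∧ HolNear B Q ∧ (∀ z ∈ A, IsUnit (P z)) ∧
        (∀ z ∈ B, IsUnit (Q z)) ∧ ∀ᶠ z in 𝓝ˢ (A ∩ B), P z = M z * Q z := by
  have : ProperSpace V := FiniteDimensional.proper ℂ V
  obtain ⟨η, hη, hηW⟩ := e7_thick hA hB hW hABW
  set A' := cthickening η A with hA'def
  set B' := cthickening η B with hB'def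
  have hA' : Good A' := ⟨hA.1.cthickening, hA.2.cthickening η⟩
  have hB' : Good B' := ⟨hB.1.cthickening, hB.2.cthickening η⟩
  have hAB' : Convex ℝ (A' ∪ B') := by
    rw [hA'def, hB'def, ← cthickening_union]
    exact hAB.cthickening η
  have hint : ∀ S : Set V, thickening η S ⊆ interior (cthickening η S) := fun S =>
    interior_maximal (thickening_subset_cthickening η S) isOpen_thickening
  have hC : Good (A' ∩ B') := ⟨hA'.1.inter_right hB'.1.isClosed, hA'.2.inter hB'.2⟩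
  obtain ⟨L, hL⟩ := exists_EN ℂ hC hW hηW
  set N : ℝ≥0 := (Fintype.card n : ℝ≥0) with hN
  set m : ℝ≥0 := 1 / (4 * (N + 1)) with hm
  have hNm : N * m ≤ 1 / 4 := by
    rw [hm, mul_one_div, div_le_div_iff₀ (by positivity) (by positivity)]
    nlinarith
  refine ⟨((m / (L + 1) : ℝ≥0) : ℝ), by positivity, fun M hM hMb => ?_⟩
  have he : ME (A' ∩ B') (fun z => M z - 1) m := fun i j =>
    (hL _ (fun z hz => (diff_iff.1 (((hM z hz).differentiableAt (hW.mem_nhds hz)).sub_const 1)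
      i j).differentiableWithinAt) _ fun z hz => (entry_le _ i j).trans (hMb z hz)).mono (by
      rw [mul_div_assoc', div_le_iff₀ (by positivity)]
      nlinarith [m.2])
  have sp : ∀ (g : V → Matrix n n ℂ) (c : ℝ≥0), ME (A' ∩ B') g c → ∃ u v : V → Matrix n n ℂ,
      ME A' u c ∧ ME B' v c ∧ ∀ z ∈ A' ∩ B', g z = u z - v z := fun g c h => by
    choose u v h1 h2 h3 using fun i j => EN.split hA' hB' hAB' (h i j)
    exact ⟨fun z => Matrix.of fun i j => u i j z, fun z => Matrix.of fun i j => v i j z, h1, h2,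
      fun z hz => Matrix.ext fun i j => h3 i j z hz⟩
  choose! u v h1 h2 h3 using sp
  set c : ℕ → ℝ≥0 := fun k => m * (1 / 2) ^ k with hc
  let g : ℕ → V → Matrix n n ℂ := fun k =>
    Nat.rec (fun z => M z - 1) (fun k g z => (M z - 1) * v g (c k) z) k
  have hg : ∀ k, ME (A' ∩ B') (g k) (c k) := fun k => by
    induction k with
    | zero => simpa [hc, g] using he
    | succ k ih =>
      refine fun i j => (he.mul (fun i j => (h2 _ _ ih i j).mono_set inter_subset_right) i j).mono ?_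
      rw [← mul_assoc, show c (k + 1) = 1 / 2 * c k by simp only [hc]; ring]
      exact mul_le_mul_left (hNm.trans (by rw [← NNReal.coe_le_coe]; norm_num)) _
  have hs : HasSum c (m * 2) := by
    have := (NNReal.hasSum_geometric (r := 1 / 2) (by norm_num)).mul_left m
    rwa [show (1 - 1 / 2 : ℝ≥0)⁻¹ = 2 by
      rw [← NNReal.coe_inj]; rw [NNReal.coe_inv, NNReal.coe_sub (by norm_num)]; norm_num] at this
  have key : ∀ (S : Set V) (w : ℕ → V → Matrix n n ℂ), (∀ k, ME (cthickening η S) (w k) (c k)) →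
      HolNear S (fun z => 1 + ∑' k, w k z) ∧ (∀ z ∈ S, IsUnit (1 + ∑' k, w k z)) ∧
      ∀ z ∈ cthickening η S, Summable fun k => w k z := fun S w hw => by
    have a1 : ∀ z ∈ cthickening η S, Summable fun k => w k z := fun z hz =>
      Summable.of_norm_bounded ((NNReal.summable_coe.2 hs.summable).mul_left _)
        fun k => norm_le_of fun i j => (hw k i j).bound hz
    have a2 : ME (cthickening η S) (fun z => ∑' k, w k z) (m * 2) := fun i j => by
      refine (hs.tsum_eq ▸ EN.tsum (fun k => hw k i j) hs.summable).congr fun z hz => ?_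
      exact ((LinearMap.toContinuousLinearMap (Matrix.entryLinearMap ℂ ℂ i j)).map_tsum
        (a1 z hz)).symm
    refine ⟨?_, fun z hz => ?_, a1⟩
    · filter_upwards [isOpen_thickening.mem_nhdsSet.2 (self_subset_thickening hη S)] with z hz
      exact (diff_iff.2 fun i j => (a2 i j).differentiableOn.differentiableAt
        (isOpen_interior.mem_nhds (hint S hz))).const_add 1
    · rw [← sub_neg_eq_add]
      refine isUnit_one_sub_of_norm_lt_one ?_
      rw [norm_neg]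
      refine (norm_le_of fun i j => (a2 i j).bound (self_subset_cthickening S hz)).trans_lt ?_
      have : (N : ℝ) * m ≤ 1 / 4 := by exact_mod_cast hNm
      push_cast [hN] at this ⊢
      linarith
  obtain ⟨a1, a2, a3⟩ := key A _ fun k => h1 _ _ (hg k)
  obtain ⟨b1, b2, b3⟩ := key B _ fun k => h2 _ _ (hg k)
  refine ⟨_, _, a1, b1, a2, b2, ?_⟩
  filter_upwards [(isOpen_thickening.inter isOpen_thickening).mem_nhdsSet.2
    (inter_subset_inter (self_subset_thickening hη A) (self_subset_thickening hη B))] with z hz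
  have hz' : z ∈ A' ∩ B' :=
    ⟨thickening_subset_cthickening η A hz.1, thickening_subset_cthickening η B hz.2⟩
  have e1 := ((a3 z hz'.1).hasSum.sub (b3 z hz'.2).hasSum)
  have e2 : HasSum (fun k => g k z) ((M z - 1) * ∑' k, v (g k) (c k) z + (M z - 1)) := by
    have := (hasSum_nat_add_iff (f := fun k => g k z) 1).1 ((b3 z hz'.2).hasSum.mul_left (M z - 1))
    rw [Finset.sum_range_one] at this
    exact this
  simp only [← h3 _ _ (hg _) z hz'] at e1
  rw [eq_add_of_sub_eq (e1.unique e2)]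
  noncomm_ring

/-- Cartan's lemma for `GL_n(ℂ)`. -/
theorem cartan {A B : Set V} (hA : Good A) (hB : Good B) (hAB : Convex ℝ (A ∪ B))
    {M : V → Matrix n n ℂ} (hM : HolNear (A ∩ B) M) (hMu : ∀ z ∈ A ∩ B, IsUnit (M z)) :
    ∃ P Q : V → Matrix n n ℂ, HolNear A P ∧ HolNear B Q ∧ (∀ z ∈ A, IsUnit (P z)) ∧
        (∀ z ∈ B, IsUnit (Q z)) ∧ ∀ᶠ z in 𝓝ˢ (A ∩ B), P z = M z * Q z := by
  have : ProperSpace V := FiniteDimensional.proper ℂ V
  have gi : Good (A ∩ B) := ⟨hA.1.inter hB.1, hA.2.inter hB.2⟩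
  obtain ⟨O, hO, hKO, hOp⟩ := eventually_nhdsSet_iff_exists.1 (HolNear.evUnit hM hMu)
  obtain ⟨κ, hκ, hκO⟩ := gi.1.exists_cthickening_subset_open hO hKO
  set K := cthickening κ (A ∩ B) with hK
  have gK : Good K := ⟨gi.1.cthickening, gi.2.cthickening κ⟩
  set W := thickening κ (A ∩ B) with hW
  have hWK : W ⊆ K := thickening_subset_cthickening _ _
  have hWo : IsOpen W := isOpen_thickening
  have hiW : A ∩ B ⊆ W := self_subset_thickening hκ _
  obtain ⟨δ, hδ, key⟩ := split_near_one (n := n) hA hB hAB hWo hiW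
  have hKev : ∀ᶠ z in 𝓝ˢ K, DifferentiableAt ℂ M z ∧ IsUnit (M z) :=
    eventually_nhdsSet_iff_exists.2 ⟨O, hO, hκO, hOp⟩
  have hMK : HolNear K M := hKev.mono fun z hz => hz.1
  have hMKc : ContinuousOn M K := fun z hz =>
    (hMK.self_of_nhdsSet z hz).continuousAt.continuousWithinAt
  obtain ⟨β, hβ, hMβ⟩ := exists_bound gK.1 hMKc
  have hinv : HolNear K (fun z => Ring.inverse (M z)) := hKev.mono fun z hz => hz.1.inverse hz.2
  obtain ⟨N, hN, hNu, hNM⟩ := appr_of_good gK hinv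
    (fun z hz => (hKev.self_of_nhdsSet z hz).2.ringInverse) (δ / β) (by positivity)
  obtain ⟨P, Q, hP, hQ, hPu, hQu, hPQ⟩ := key (fun z => N z * M z) (by
      intro z hz
      exact (hN z).differentiableWithinAt.mul
        (hMK.self_of_nhdsSet z (hWK hz)).differentiableWithinAt) (by
      intro z hz
      have hzK := hWK hz
      have h1 : N z * M z - 1 = (N z - Ring.inverse (M z)) * M z := by
        rw [sub_mul, Ring.inverse_mul_cancel _ (hKev.self_of_nhdsSet z hzK).2]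
      rw [h1]
      calc _ ≤ ‖N z - Ring.inverse (M z)‖ * ‖M z‖ := norm_mul_le _ _
        _ ≤ (δ / β) * β := by
          gcongr
          · exact (hNM z hzK).le
          · exact hMβ z hzK
        _ = δ := by field_simp)
  refine ⟨fun z => Ring.inverse (N z) * P z, Q, ?_, hQ, fun z hz => (hNu z).ringInverse.mul (hPu z hz),
    hQu, ?_⟩
  · filter_upwards [hP] with z hz
    exact ((hN z).inverse (hNu z)).mul hz
  · filter_upwards [hPQ] with z hz
    rw [hz, mul_assoc, Ring.inverse_mul_cancel_left _ _ (hNu z)]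

end cartan

section cousin
variable {V : Type} [NormedAddCommGroup V] [NormedSpace ℂ V]
variable {A : Type} {O : A → Set V} {γ : A → A → V → Matrix n n ℂ}

/-- `θ` solves the Cousin problem at the point `z` -/
def GSol (O : A → Set V) (γ : A → A → V → Matrix n n ℂ) (θ : A → V → Matrix n n ℂ) (z : V) : Prop :=
  ∀ a, z ∈ O a →
      DifferentiableAt ℂ (θ a) z ∧ IsUnit (θ a z) ∧ ∀ b, z ∈ O b → θ b z = γ a b z * θ a z

theorem GSol.twist (hO : ∀ a, IsOpen (O a)) {θ θ' : A → V → Matrix n n ℂ}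
    {h : V → Matrix n n ℂ} {z : V} (h1 : GSol O γ θ' z)
    (h2 : DifferentiableAt ℂ h z) (hu : IsUnit (h z))
    (h3 : ∀ᶠ y in 𝓝 z, ∀ a, y ∈ O a → θ a y = θ' a y * h y) : GSol O γ θ z := by
  intro a ha
  obtain ⟨d1, d2, d3⟩ := h1 a ha
  have h4 := h3.self_of_nhds
  have h5 : θ a =ᶠ[𝓝 z] fun y => θ' a y * h y := by
    filter_upwards [h3, (hO a).mem_nhds ha] with y hy hya
    exact hy a hya
  refine ⟨(d1.mul h2).congr_of_eventuallyEq h5, ?_, ?_⟩
  · rw [h4 a ha]
    exact d2.mul hu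
  · intro b hb
    rw [h4 a ha, h4 b hb, d3 b hb, mul_assoc]

theorem GSol.ratio {θ θ' : A → V → Matrix n n ℂ} {z : V} (h1 : GSol O γ θ z) (h1' : GSol O γ θ' z)
    {a b : A} (ha : z ∈ O a) (hb : z ∈ O b) :
    Ring.inverse (θ b z) * θ' b z = Ring.inverse (θ a z) * θ' a z := by
  obtain ⟨-, d2, d3⟩ := h1 a ha
  obtain ⟨-, d2', d3'⟩ := h1' a ha
  have hb2 := (h1 b hb).2.1
  rw [d3 b hb] at hb2
  have hg : IsUnit (γ a b z) := by
    have h5 : IsUnit (γ a b z * θ a z * Ring.inverse (θ a z)) := hb2.mul d2.ringInverse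
    rwa [mul_assoc, Ring.mul_inverse_cancel _ d2, mul_one] at h5
  have h5 : θ a z * (Ring.inverse (θ b z) * θ' b z) = θ' a z := by
    obtain ⟨u, hu⟩ := d2
    obtain ⟨w, hw⟩ := hg
    rw [d3 b hb, d3' b hb, ← hu, ← hw, ← Units.val_mul, Ring.inverse_unit, mul_inv_rev,
      Units.val_mul, ← mul_assoc, ← mul_assoc, ← mul_assoc, Units.mul_inv, one_mul, Units.inv_mul,
      one_mul]
  rw [← h5, ← mul_assoc (Ring.inverse (θ a z)), Ring.inverse_mul_cancel _ d2, one_mul]

theorem GSol.exists_ratio (hO : ∀ a, IsOpen (O a)) {K : Set V} (hcov : K ⊆ ⋃ a, O a)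
    {θ θ' : A → V → Matrix n n ℂ} (h1 : ∀ᶠ z in 𝓝ˢ K, GSol O γ θ z)
    (h1' : ∀ᶠ z in 𝓝ˢ K, GSol O γ θ' z) :
    ∃ M : V → Matrix n n ℂ, HolNear K M ∧ (∀ z ∈ K, IsUnit (M z)) ∧ ∀ᶠ z in 𝓝ˢ K, ∀ a, z ∈ O a →
      θ' a z = θ a z * M z := by
  classical
  have hev : ∀ᶠ z in 𝓝ˢ K, GSol O γ θ z ∧ GSol O γ θ' z ∧ ∃ a, z ∈ O a := by
    refine h1.and (h1'.and ?_)
    have : (⋃ a, O a) ∈ 𝓝ˢ K := (isOpen_iUnion hO).mem_nhdsSet.2 hcov
    filter_upwards [this] with z hz
    exact mem_iUnion.1 hz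
  let ρ : V → Matrix n n ℂ := fun z =>
    if h : ∃ a, z ∈ O a then Ring.inverse (θ h.choose z) * θ' h.choose z else 1
  have hρ : ∀ z a, GSol O γ θ z → GSol O γ θ' z → z ∈ O a →
      ρ z = Ring.inverse (θ a z) * θ' a z := by
    intro z a hz hz' ha
    have h : ∃ a, z ∈ O a := ⟨a, ha⟩
    simp only [ρ, dif_pos h]
    exact GSol.ratio hz hz' ha h.choose_spec
  refine ⟨ρ, ?_, ?_, ?_⟩
  · filter_upwards [ev_ev_nhdsSet hev] with z hz
    obtain ⟨hz1, hz2, a, ha⟩ := hz.self_of_nhds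
    have h5 : ρ =ᶠ[𝓝 z] fun y => Ring.inverse (θ a y) * θ' a y := by
      filter_upwards [hz, (hO a).mem_nhds ha] with y hy hya
      exact hρ y a hy.1 hy.2.1 hya
    exact (((hz1 a ha).1.inverse (hz1 a ha).2.1).mul (hz2 a ha).1).congr_of_eventuallyEq h5
  · intro z hz
    obtain ⟨hz1, hz2, a, ha⟩ := (eventually_nhdsSet_iff_forall.1 hev z hz).self_of_nhds
    rw [hρ z a hz1 hz2 ha]
    exact (hz1 a ha).2.1.ringInverse.mul (hz2 a ha).2.1
  · filter_upwards [hev] with z hz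
    intro a ha
    rw [hρ z a hz.1 hz.2.1 ha, Ring.mul_inverse_cancel_left _ _ (hz.1 a ha).2.1]

/-- Cousin problem for `GL_n(ℂ)` near a compact convex set (in terms of units) -/
theorem cousinUnits [FiniteDimensional ℂ V] {S : Set V} (hS : Good S) {A : Type} (O : A → Set V)
    (hO : ∀ a, IsOpen (O a)) (hcov : S ⊆ ⋃ a, O a) (γ : A → A → V → Matrix n n ℂ)
    (hγ : ∀ a b, ∀ z ∈ O a ∩ O b, DifferentiableAt ℂ (γ a b) z ∧ IsUnit (γ a b z))
    (hcoc : ∀ a b c, ∀ z ∈ O a ∩ O b ∩ O c, γ a c z = γ b c z * γ a b z) :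
    ∃ θ : A → V → Matrix n n ℂ, ∀ᶠ z in 𝓝ˢ S, GSol O γ θ z := by
  classical
  refine hS.bisect (fun T => ∃ θ : A → V → Matrix n n ℂ, ∀ᶠ z in 𝓝ˢ T, GSol O γ θ z) ?_ ?_ ?_
  · exact ⟨fun _ _ => 0, by simp only [nhdsSet_empty, eventually_bot]⟩
  · intro z hz
    obtain ⟨a₀, ha₀⟩ := mem_iUnion.1 (hcov hz)
    refine ⟨O a₀, (hO a₀).mem_nhds ha₀, fun T _ _ hTU => ⟨fun b => γ a₀ b, ?_⟩⟩
    have : O a₀ ∈ 𝓝ˢ T := (hO a₀).mem_nhdsSet.2 hTU
    filter_upwards [this] with y hy
    intro a ha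
    refine ⟨(hγ a₀ a y ⟨hy, ha⟩).1, (hγ a₀ a y ⟨hy, ha⟩).2, fun b hb => ?_⟩
    exact hcoc a₀ a b y ⟨⟨hy, ha⟩, hb⟩
  · intro T hT hTS l c hP' hP''
    obtain ⟨θ', hθ'⟩ := hP'
    obtain ⟨θ'', hθ''⟩ := hP''
    set T' := T ∩ {x | l x ≤ c} with hT'
    set T'' := T ∩ {x | c ≤ l x} with hT''
    have gT' : Good T' := hT.inter_le l c
    have gT'' : Good T'' := hT.inter_ge l c
    have hun : T' ∪ T'' = T := by
      rw [hT', hT'', ← inter_union_distrib_left]
      refine inter_eq_left.2 fun x _ => ?_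
      exact le_total (l x) c
    have m1 : 𝓝ˢ (T' ∩ T'') ≤ 𝓝ˢ T' := nhdsSet_mono inter_subset_left
    have m2 : 𝓝ˢ (T' ∩ T'') ≤ 𝓝ˢ T'' := nhdsSet_mono inter_subset_right
    obtain ⟨M, hM, hMu, hMr⟩ := GSol.exists_ratio hO
      (inter_subset_left.trans (inter_subset_left.trans (hTS.trans hcov)))
      (hθ'.filter_mono m1) (hθ''.filter_mono m2)
    -- `θ'' = θ' M`, `P = M Q`, so `θ' P = θ'' Q`
    obtain ⟨P, Q, hP, hQ, hPu, hQu, hPQ⟩ := cartan gT' gT'' (by rw [hun]; exact hT.2) hM hMu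
    let u' : V → A → Matrix n n ℂ := fun z a => if z ∈ O a then θ' a z * P z else 0
    let u'' : V → A → Matrix n n ℂ := fun z a => if z ∈ O a then θ'' a z * Q z else 0
    obtain ⟨u, hu', hu''⟩ := exists_glue gT'.1 gT''.1 u' u'' (by
      filter_upwards [hMr, hPQ] with z hz hz'
      funext a
      simp only [u', u'']
      split_ifs with ha
      · rw [hz a ha, hz', mul_assoc]
      · rfl)
    refine ⟨fun a z => u z a, ?_⟩
    rw [← hun, nhdsSet_union, eventually_sup]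
    constructor
    · filter_upwards [hθ', HolNear.evUnit hP hPu, ev_ev_nhdsSet hu'] with z h1 h2 h3
      refine h1.twist hO h2.1 h2.2 ?_
      filter_upwards [h3] with y hy a ha
      simp only [hy, ha, ↓reduceIte, u']
    · filter_upwards [hθ'', HolNear.evUnit hQ hQu, ev_ev_nhdsSet hu''] with z h1 h2 h3
      refine h1.twist hO h2.1 h2.2 ?_
      filter_upwards [h3] with y hy a ha
      simp only [hy, ha, ↓reduceIte, u'']

end cousin

/-- **Holomorphic bundles are trivial near a compact convex set.** -/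
theorem triv {V : Type} [NormedAddCommGroup V] [NormedSpace ℂ V] [FiniteDimensional ℂ V]
    {S : Set V} (hS : IsCompact S) (hc : Convex ℝ S) {A : Type} (O : A → Set V)
    (hO : ∀ a, IsOpen (O a)) (hcov : S ⊆ ⋃ a, O a) (γ : A → A → V → Matrix n n ℂ)
    (hγ : ∀ a b, ∀ z ∈ O a ∩ O b, DifferentiableAt ℂ (γ a b) z ∧ IsUnit (γ a b z))
    (hcoc : ∀ a b c, ∀ z ∈ O a ∩ O b ∩ O c, γ a c z = γ b c z * γ a b z) :
    ∃ (U : Set V) (θ : A → V → Matrix n n ℂ), IsOpen U ∧ S ⊆ U ∧ ∀ z ∈ U, ∀ a, z ∈ O a →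
      DifferentiableAt ℂ (θ a) z ∧ IsUnit (θ a z) ∧ ∀ b, z ∈ O b → θ b z = γ a b z * θ a z := by
  obtain ⟨θ, hθ⟩ := cousinUnits ⟨hS, hc⟩ O hO hcov γ hγ hcoc
  obtain ⟨U, h1, h2, h3⟩ := eventually_nhdsSet_iff_exists.1 hθ
  exact ⟨U, θ, h1, h2, h3⟩

end Vale.Agent.P275TR
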